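import Vale.Agent.P105Z.Main
import Vale.Agent.Q105.Main
import Vale.Agent.Q105.D3

open MeasureTheory Filter

namespace Vale.Agent.Results.P105.A00Degree31

open Vale.Agent.P105 Vale.Agent.P105.Salem Vale.Agent.P105Z

/-- **Singular Bernoulli convolutions: classification, Salem numbers of degree four, and a
parameter of degree 31 whose inverse is neither a Pisot nor a Salem number.**
(1) The sets `A(n, K) = unitSet n K` are finite sets of algebraic units of `(1 / 2, 1)`.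
(2) For every `lam ∈ [1 / 2, 1)`: the Bernoulli convolution is singular if and only if for every
`K` there are `n` and `η ∈ A(n, K)` with `lam ≤ η ≤ lam + lam ^ n`; it is absolutely continuous if
and only if this fails; variants with all large `n` and with `|η - lam| ≤ lam ^ n`.
(3) For `lam ∈ (0, 1 / 2)` it is singular.
(4) If `1 / lam` is a Salem number of degree four, it is singular.
(5) There is such a `lam ∈ (1 / 2, 1)`; its inverse is not a Pisot number.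
(6) For the root `lam ∈ (1 / 2, 1)` of `x + x ^ 2 + x ^ 3 + x ^ 33 = 1`, the number `1 / lam` is an
algebraic integer of degree 31, neither Pisot nor Salem, and the Bernoulli convolution is
singular, of Hausdorff dimension smaller than one. -/
theorem result :
    (∀ n K : ℕ, (unitSet n K).Finite ∧
      ∀ η ∈ unitSet n K, 1 / 2 < η ∧ η < 1 ∧ IsIntegral ℤ η ∧ IsIntegral ℤ η⁻¹) ∧
    (∀ lam : ℝ, 1 / 2 ≤ lam → lam < 1 →
      (bernConv lam ⟂ₘ volume ↔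
        ∀ K : ℕ, ∃ n : ℕ, ∃ η ∈ unitSet n K, lam ≤ η ∧ η ≤ lam + lam ^ n) ∧
      (bernConv lam ≪ volume ↔
        ∃ K : ℕ, ∀ n : ℕ, ∀ η ∈ unitSet n K, ¬ (lam ≤ η ∧ η ≤ lam + lam ^ n)) ∧
      (bernConv lam ⟂ₘ volume ↔
        ∀ K : ℕ, ∀ᶠ n : ℕ in atTop, ∃ η ∈ unitSet n K, lam ≤ η ∧ η ≤ lam + lam ^ n) ∧
      (bernConv lam ⟂ₘ volume ↔
        ∀ K : ℕ, ∃ n : ℕ, ∃ η ∈ unitSet n K, |η - lam| ≤ lam ^ n)) ∧
    (∀ lam : ℝ, 0 < lam → lam < 1 / 2 → bernConv lam ⟂ₘ volume) ∧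
    (∀ lam : ℝ, 0 < lam → IsSalem lam⁻¹ → (minpoly ℚ lam⁻¹).natDegree = 4 →
      bernConv lam ⟂ₘ volume) ∧
    (∃ lam : ℝ, 1 / 2 < lam ∧ lam < 1 ∧ lam ^ 4 - lam ^ 3 - lam ^ 2 - lam + 1 = 0 ∧
      IsSalem lam⁻¹ ∧ ¬ IsPisot lam⁻¹ ∧ bernConv lam ⟂ₘ volume) ∧
    ∃ lam : ℝ, 1 / 2 < lam ∧ lam < 1 ∧ lam + lam ^ 2 + lam ^ 3 + lam ^ 33 = 1 ∧
      IsIntegral ℤ lam⁻¹ ∧ (minpoly ℚ lam⁻¹).natDegree = 31 ∧ ¬ IsPisot lam⁻¹ ∧
      ¬ IsSalem lam⁻¹ ∧ bernConv lam ⟂ₘ volume ∧ hdim (bernConv lam) < 1 := by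
  refine ⟨fun n K => ⟨unitSet_finite n K, fun η hη => ?_⟩, fun lam h0 h1 => classification h0 h1,
    fun lam h0 h1 => singular_of_lt_half h0 h1, main.1, main.2, ?_⟩
  · obtain ⟨h0, h1, ⟨D, hD, hs⟩, -⟩ := hη
    exact ⟨half_lt_of_root h0 hD hs, h1, isIntegral_of_root hD hs, isIntegral_inv_of_root h0 hD hs⟩
  · obtain ⟨l, h0, hl⟩ := Q105.exists_lam
    obtain ⟨h1, h2⟩ := Q105.lam_half h0.le hl
    have hb := (Q105.lam_iff h0.ne').1 hl
    have h := Q105.sing31 (inv_pos.2 h0) hb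
    have hd := Q105.dim_of_rows Q105.rowCF Q105.rowH (Q105.rowE0 Q105.rowCF) Q105.rowK Q105.rowT1
      Q105.rowT3 Q105.rowT40 Q105.rowN28 (Q105.rowW72 (Q105.rowB33 Q105.rowCF) Q105.rowC82)
      (Q105.rowG_ok Q105.rowCF (Q105.rowK2
        (Q105.rowK151 (Q105.rowL Q105.rowCF Q105.rowI) Q105.rowC82) Q105.rowTau))
      Q105.rowCert (inv_pos.2 h0) hb
    rw [inv_inv] at h hd
    exact ⟨l, h1, h2, hl, h.1, h.2.1, h.2.2.1, h.2.2.2.1, h.2.2.2.2, hd⟩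

end Vale.Agent.Results.P105.A00Degree31
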